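import Vale.Agent.P275.H490.Defs

/-!
# The lowest weight of the isotypic parts: row FIN
-/

namespace Vale.Agent.P275.H917

open scoped BigOperators Topology
open Filter Vale.Agent.P275.H490

theorem tendsto_inv_sqrt_pow (F : Filter ℕ) (hF : F ≤ atTop) (j : ℕ) (hj : 0 < j) :
    Tendsto (fun p : ℕ => 1 / ((Real.sqrt p : ℝ) : ℂ) ^ j) F (𝓝 0) := by
  have h1 : Tendsto (fun p : ℕ => Real.sqrt p) F atTop :=
    (Real.tendsto_sqrt_atTop.comp tendsto_natCast_atTop_atTop).mono_left hF
  have h2 : Tendsto (fun p : ℕ => (1 / (Real.sqrt p) ^ j : ℝ)) F (𝓝 0) := by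
    have h4 := (tendsto_inv_atTop_zero (𝕜 := ℝ)).comp ((tendsto_pow_atTop (α := ℝ) hj.ne').comp h1)
    simpa [one_div, Function.comp_def] using h4
  have h3 := (Complex.continuous_ofReal.tendsto 0).comp h2
  simpa [Function.comp_def] using h3

theorem rowFIN : RowFIN := by
  intro D R g M N hg hM hDR hN h hsupp hlow hsum E hE hEq
  set F : Filter ℕ := atTop ⊓ 𝓟 {p : ℕ | p.Prime ∧ p ≡ 1 [MOD M]} with hFdef
  have hNB : NeBot F := by
    rw [hFdef, ← Filter.frequently_mem_iff_neBot]
    exact Nat.frequently_atTop_modEq_one (by omega)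
  have hFle : F ≤ atTop := inf_le_left
  have hmem : ∀ᶠ p in F, p.Prime ∧ p ≡ 1 [MOD M] := by
    have : {p : ℕ | p.Prime ∧ p ≡ 1 [MOD M]} ∈ F := mem_inf_of_right (mem_principal_self _)
    exact this
  set s : ℕ → ℂ := fun p => ((Real.sqrt p : ℝ) : ℂ) with hs
  set c : ℕ → ℕ → ℂ := fun k w => (-1) ^ k * (h k w : ℂ) with hc
  have hs2 : ∀ p : ℕ, s p ^ 2 = p := by
    intro p
    simp only [hs]
    rw [← Complex.ofReal_pow, Real.sq_sqrt (Nat.cast_nonneg p)]
    simp
  have hs0 : ∀ p : ℕ, p.Prime → s p ≠ 0 := by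
    intro p hp h0
    have := hs2 p
    rw [h0] at this
    have h2 : (p : ℂ) = 0 := by rw [← this]; norm_num
    exact hp.ne_zero (by exact_mod_cast h2)
  -- the normalised sum
  set G : ℕ → ℂ := fun p => ∑ k ∈ Finset.range (2 * R + 1), ∑ w ∈ Finset.range (2 * k + 1),
    c k w * (s p ^ (4 * R - w) / s p ^ (4 * R - 2 * D - 2)) with hG
  have hinv : Tendsto (fun p : ℕ => (1 / (p : ℂ))) F (𝓝 0) := by
    have := tendsto_inv_sqrt_pow F hFle 2 (by norm_num)
    refine this.congr fun p => ?_
    have := hs2 p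
    simp only [hs] at this
    rw [this]
  have hone : Tendsto (fun p : ℕ => (1 - 1 / (p : ℂ)) ^ (2 * g - 2)) F (𝓝 1) := by
    have := (tendsto_const_nhds (x := (1 : ℂ))).sub hinv
    simpa using this.pow (2 * g - 2)
  have hEF : Tendsto (fun q : ℕ => (E q / (q : ℂ) ^ N - 0) * q) F (𝓝 (-(2 * g - 2))) :=
    hE.mono_left hFle
  have hkey : ∀ᶠ p in F, (E p / (p : ℂ) ^ N - 0) * p / (1 - 1 / (p : ℂ)) ^ (2 * g - 2) = G p := by
    filter_upwards [hmem] with p hp
    have hp0 : (p : ℂ) ≠ 0 := by exact_mod_cast hp.1.ne_zero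
    have hp1 : (p : ℂ) - 1 ≠ 0 := by
      rw [sub_ne_zero]
      exact_mod_cast hp.1.one_lt.ne'
    have hsp := hs0 p hp.1
    have e1 := hEq p hp.1 hp.2
    have e2 : ∑ k ∈ Finset.range (2 * R + 1), ∑ w ∈ Finset.range (2 * k + 1),
        (-1) ^ k * (h k w : ℂ) * ((Real.sqrt p : ℝ) : ℂ) ^ (4 * R - w)
        = s p ^ (4 * R - 2 * D - 2) * G p := by
      simp only [hG, Finset.mul_sum]
      refine Finset.sum_congr rfl fun k _ => Finset.sum_congr rfl fun w _ => ?_
      simp only [hc, hs]
      simp only [hs] at hsp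
      field_simp
    rw [e2] at e1
    rw [← e1, sub_zero]
    have e3 : (1 - 1 / (p : ℂ)) ^ (2 * g - 2) = ((p : ℂ) - 1) ^ (2 * g - 2) / (p : ℂ) ^ (2 * g - 2) := by
      rw [← div_pow]
      congr 1
      field_simp
    have e4 : (p : ℂ) ^ N = (p : ℂ) ^ (2 * g - 2) * s p ^ (4 * R - 2 * D - 2) * p := by
      have : s p ^ (4 * R - 2 * D - 2) = (p : ℂ) ^ (2 * R - D - 1) := by
        rw [← hs2 p, ← pow_mul]
        congr 1
        omega
      rw [this, ← pow_add, ← pow_succ]
      congr 1
      omega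
    rw [e3, e4]
    field_simp
  have hGlim : Tendsto G F (𝓝 (-(2 * g - 2))) := by
    have := hEF.div hone one_ne_zero
    rw [div_one] at this
    exact this.congr' hkey
  -- the single terms
  set t : ℕ → ℕ → ℕ → ℂ := fun k w p => c k w * (s p ^ (4 * R - w) / s p ^ (4 * R - 2 * D - 2)) -
    (if k = 2 * D + 1 ∧ w = 2 * D + 1 then c k w * s p else 0) with ht
  have hterm : ∀ k ∈ Finset.range (2 * R + 1), ∀ w ∈ Finset.range (2 * k + 1),
      Tendsto (t k w) F (𝓝 (if w = 2 * D + 2 then c k w else 0)) := by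
    intro k hk w hw
    rw [Finset.mem_range] at hk hw
    by_cases h0 : h k w = 0
    · have : t k w = fun _ => 0 := by
        funext p
        simp [ht, hc, h0]
      rw [this]
      simp [hc, h0]
    have hk1 : 2 * D + 1 ≤ k := by
      by_contra hlt
      exact h0 (hlow k w (by omega))
    have hkw := (hsupp k w h0).1
    rcases Nat.lt_trichotomy w (2 * D + 2) with hw1 | hw1 | hw1
    · have hw2 : w = 2 * D + 1 := by omega
      have hk2 : k = 2 * D + 1 := by omega
      subst hw2
      subst hk2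
      have : ∀ᶠ p in F, (0 : ℂ) = t (2 * D + 1) (2 * D + 1) p := by
        filter_upwards [hmem] with p hp
        have hsp := hs0 p hp.1
        simp only [ht]
        have e : 4 * R - (2 * D + 1) = (4 * R - 2 * D - 2) + 1 := by omega
        rw [e, pow_succ]
        have h5 : s p ^ (4 * R - 2 * D - 2) ≠ 0 := pow_ne_zero _ hsp
        simp only [and_self, if_true]
        rw [mul_comm (s p ^ (4 * R - 2 * D - 2)) (s p), mul_div_assoc, div_self h5, mul_one, sub_self]
      rw [if_neg (by omega)]
      exact tendsto_const_nhds.congr' this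
    · subst hw1
      rw [if_pos rfl]
      have : ∀ᶠ p in F, c k (2 * D + 2) = t k (2 * D + 2) p := by
        filter_upwards [hmem] with p hp
        have hsp := hs0 p hp.1
        simp only [ht]
        rw [if_neg (by omega)]
        have e : 4 * R - (2 * D + 2) = 4 * R - 2 * D - 2 := by omega
        rw [e, div_self (pow_ne_zero _ hsp)]
        ring
      exact tendsto_const_nhds.congr' this
    · rw [if_neg (by omega)]
      have h1 := (tendsto_inv_sqrt_pow F hFle (w - (2 * D + 2)) (by omega)).const_mul (c k w)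
      rw [mul_zero] at h1
      refine h1.congr' ?_
      filter_upwards [hmem] with p hp
      have hsp := hs0 p hp.1
      simp only [ht]
      rw [if_neg (by omega), sub_zero]
      have e : 4 * R - 2 * D - 2 = (4 * R - w) + (w - (2 * D + 2)) := by omega
      rw [e, pow_add]
      have h3 : s p ^ (4 * R - w) ≠ 0 := pow_ne_zero _ hsp
      have h4 : s p ^ (w - (2 * D + 2)) ≠ 0 := pow_ne_zero _ hsp
      change c k w * (1 / s p ^ (w - (2 * D + 2))) = _
      field_simp
  have hsumt : Tendsto (fun p => ∑ k ∈ Finset.range (2 * R + 1), ∑ w ∈ Finset.range (2 * k + 1),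
      t k w p) F (𝓝 (∑ k ∈ Finset.range (2 * R + 1), ∑ w ∈ Finset.range (2 * k + 1),
        (if w = 2 * D + 2 then c k w else 0))) :=
    tendsto_finsetSum _ fun k hk => tendsto_finsetSum _ fun w hw => hterm k hk w hw
  have hval : (∑ k ∈ Finset.range (2 * R + 1), ∑ w ∈ Finset.range (2 * k + 1),
        (if w = 2 * D + 2 then c k w else 0)) =
      -(h (2 * D + 1) (2 * D + 2) : ℂ) + (h (2 * D + 2) (2 * D + 2) : ℂ) := by
    have h1 : ∀ k ∈ Finset.range (2 * R + 1), (∑ w ∈ Finset.range (2 * k + 1),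
        (if w = 2 * D + 2 then c k w else 0)) =
        (if k = 2 * D + 1 then -(h (2 * D + 1) (2 * D + 2) : ℂ) else 0) +
        (if k = 2 * D + 2 then (h (2 * D + 2) (2 * D + 2) : ℂ) else 0) := by
      intro k _
      rw [Finset.sum_ite_eq' (Finset.range (2 * k + 1)) (2 * D + 2) (fun w => c k w)]
      by_cases h0 : h k (2 * D + 2) = 0
      · rw [show (if 2 * D + 2 ∈ Finset.range (2 * k + 1) then c k (2 * D + 2) else 0) = 0 by
          simp [hc, h0]]
        by_cases e1 : k = 2 * D + 1
        · subst e1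
          simp [h0]
        · by_cases e2 : k = 2 * D + 2
          · subst e2
            simp [h0]
          · simp [e1, e2]
      · have hk1 : 2 * D + 1 ≤ k := by
          by_contra hlt
          exact h0 (hlow k _ (by omega))
        have hkw := hsupp k _ h0
        rw [if_pos (by rw [Finset.mem_range]; omega)]
        rcases (by omega : k = 2 * D + 1 ∨ k = 2 * D + 2) with e | e
        · subst e
          have : (-1 : ℂ) ^ (2 * D + 1) = -1 := by rw [pow_succ, pow_mul]; norm_num
          simp [hc, this]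
        · subst e
          have : (-1 : ℂ) ^ (2 * D + 2) = 1 := by
            rw [show 2 * D + 2 = 2 * (D + 1) by ring, pow_mul]; norm_num
          simp [hc, this]
    rw [Finset.sum_congr rfl h1, Finset.sum_add_distrib, Finset.sum_ite_eq', Finset.sum_ite_eq',
      if_pos (by rw [Finset.mem_range]; omega), if_pos (by rw [Finset.mem_range]; omega)]
  have hsplit : ∀ p, G p = c (2 * D + 1) (2 * D + 1) * s p +
      ∑ k ∈ Finset.range (2 * R + 1), ∑ w ∈ Finset.range (2 * k + 1), t k w p := by
    intro p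
    have h1 : (∑ k ∈ Finset.range (2 * R + 1), ∑ w ∈ Finset.range (2 * k + 1),
        (if k = 2 * D + 1 ∧ w = 2 * D + 1 then c k w * s p else 0)) =
        c (2 * D + 1) (2 * D + 1) * s p := by
      rw [Finset.sum_eq_single (2 * D + 1)]
      · rw [Finset.sum_eq_single (2 * D + 1)]
        · rw [if_pos ⟨rfl, rfl⟩]
        · intro w _ hw
          rw [if_neg (by omega)]
        · intro hn
          exact absurd (Finset.mem_range.2 (by omega)) hn
      · intro k _ hk
        refine Finset.sum_eq_zero fun w _ => ?_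
        rw [if_neg (by omega)]
      · intro hn
        exact absurd (Finset.mem_range.2 (by omega)) hn
    rw [← h1, ← Finset.sum_add_distrib]
    simp only [hG]
    refine Finset.sum_congr rfl fun k _ => ?_
    rw [← Finset.sum_add_distrib]
    refine Finset.sum_congr rfl fun w _ => ?_
    simp only [ht]
    ring
  -- the coefficient of the growing term vanishes
  have hcs : Tendsto (fun p => c (2 * D + 1) (2 * D + 1) * s p) F
      (𝓝 (-(2 * g - 2) - (-(h (2 * D + 1) (2 * D + 2) : ℂ) + (h (2 * D + 2) (2 * D + 2) : ℂ)))) := by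
    rw [← hval]
    refine (hGlim.sub hsumt).congr fun p => ?_
    rw [hsplit p]
    ring
  have hc0 : c (2 * D + 1) (2 * D + 1) = 0 := by
    have h1 := hcs.mul (tendsto_inv_sqrt_pow F hFle 1 one_pos)
    rw [mul_zero] at h1
    have h2 : ∀ᶠ p in F, c (2 * D + 1) (2 * D + 1) * s p * (1 / ((Real.sqrt p : ℝ) : ℂ) ^ 1) =
        c (2 * D + 1) (2 * D + 1) := by
      filter_upwards [hmem] with p hp
      have hsp := hs0 p hp.1
      simp only [hs] at hsp ⊢
      rw [pow_one]
      field_simp
    have h3 := h1.congr' h2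
    exact tendsto_nhds_unique tendsto_const_nhds h3
  have hlim : (0 : ℂ) = -(2 * g - 2) -
      (-(h (2 * D + 1) (2 * D + 2) : ℂ) + (h (2 * D + 2) (2 * D + 2) : ℂ)) := by
    refine tendsto_nhds_unique ?_ hcs
    simp only [hc0, zero_mul]
    exact tendsto_const_nhds
  have hnat : h (2 * D + 1) (2 * D + 2) = (2 * g - 2) + h (2 * D + 2) (2 * D + 2) := by
    have h1 : ((h (2 * D + 1) (2 * D + 2) + 2 : ℕ) : ℂ) =
        ((2 * g + h (2 * D + 2) (2 * D + 2) : ℕ) : ℂ) := by
      push_cast
      linear_combination -hlim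
    have h2 : h (2 * D + 1) (2 * D + 2) + 2 = 2 * g + h (2 * D + 2) (2 * D + 2) := by
      exact_mod_cast h1
    omega
  have hmem2 : 2 * D + 2 ∈ Finset.range (2 * (2 * D + 1) + 1) := Finset.mem_range.2 (by omega)
  have hle : h (2 * D + 1) (2 * D + 2) ≤ 2 * g - 2 := by
    rw [← hsum]
    exact Finset.single_le_sum (f := fun w => h (2 * D + 1) w) (fun _ _ => Nat.zero_le _) hmem2
  refine ⟨fun w => ?_, by omega⟩
  by_cases hw : w = 2 * (D + 1)
  · rw [if_pos hw, hw]
    have : 2 * (D + 1) = 2 * D + 2 := by ring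
    rw [this]
    omega
  · rw [if_neg hw]
    by_cases hr : w < 2 * (2 * D + 1) + 1
    · have h1 := Finset.sum_erase_add (Finset.range (2 * (2 * D + 1) + 1))
        (fun w => h (2 * D + 1) w) hmem2
      have h2 : h (2 * D + 1) w ≤ ∑ w ∈ (Finset.range (2 * (2 * D + 1) + 1)).erase (2 * D + 2),
          h (2 * D + 1) w :=
        Finset.single_le_sum (f := fun w => h (2 * D + 1) w) (fun _ _ => Nat.zero_le _)
          (Finset.mem_erase.2 ⟨by omega, Finset.mem_range.2 hr⟩)
      rw [hsum] at h1
      omega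
    · by_contra hne
      have := (hsupp _ _ hne).2
      omega

end Vale.Agent.P275.H917
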